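import Vale.Agent.P318M.Spec

open Finset

namespace Vale.Agent.P318M

open Vale.Agent.P325 Vale.Agent.Lib.PolyTime

namespace BaseNoAux

theorem aa_le {k : ℕ} (f : Cube k → Bool) : aa f ≤ 2 ^ k :=
  (card_filter_le _ _).trans_eq (by simp)

theorem sum_le {ι : Type} (K M : ℕ) (p : ι → Bool) (F H : ι → ℕ) (hF : ∀ c, F c ≤ M)
    (h : ∀ c, p c = true ∨ K * F c ≤ H c) (G : List ι) :
    K * (G.map F).sum ≤ (G.map H).sum + M * (K * G.countP p) := by
  induction G with
  | nil => simp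
  | cons c G ih =>
    have h1 : K * F c ≤ M * K := by rw [mul_comm M]; exact Nat.mul_le_mul_left _ (hF c)
    simp only [List.map_cons, List.sum_cons, List.countP_cons, mul_add]
    by_cases hp : p c = true
    · rw [if_pos hp, mul_one]
      omega
    · have := (h c).resolve_left hp
      omega

end BaseNoAux

theorem p_baseNo (h1 : CutSum) (h2 : KKL) (h3 : Local) (h4 : Count) : BaseNo := by
  classical
  intro K
  obtain ⟨τ, hτ, h2⟩ := h2 K
  refine ⟨⌈8 * K / τ⌉₊, 1 / ((K + 1) * ((⌈4 * K / τ⌉₊ : ℝ) ^ 2 + 1)), by positivity,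
    fun k hk G hG S => ?_⟩
  have h3 := h3 K ⌈8 * K / τ⌉₊ ⌈4 * K / τ⌉₊ τ hτ ((div_le_iff₀ hτ).1 (Nat.le_ceil _))
    ((div_le_iff₀ hτ).1 (Nat.le_ceil _)) k (h2 k) fun u x => S (vx u x)
  generalize ⌈8 * K / τ⌉₊ = Λ at h3 ⊢
  generalize ⌈4 * K / τ⌉₊ = R at h3 hG
  obtain ⟨e1, e2, e3, -⟩ := h1 k Λ G S
  obtain ⟨a, ha⟩ := h4 k R hk G fun u => lab τ fun x => S (vx u x)
  have key := BaseNoAux.sum_le K (2 * 2 ^ k)
    (fun c => decide (Dec R (fun u => lab τ fun x : Cube k => S (vx u x)) c))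
    (fun c => aa (fun x : Cube k => S (vx c.1 x)) + aa (fun x : Cube k => S (vx c.2.1 x)))
    (fun c => cst Λ (fun u x => S (vx u x)) c)
    (fun c => (add_le_add (BaseNoAux.aa_le _) (BaseNoAux.aa_le _)).trans_eq (two_mul _).symm)
    (fun c => (h3 c).imp_left decide_eq_true) G
  have h5 : (K + 1) * (R ^ 2 + 1) * ugCount G a ≤ G.length := by
    have := hG a
    rw [one_div, inv_mul_eq_div, le_div_iff₀' (by positivity)] at this
    exact_mod_cast this
  have h6 : K * (R ^ 2 * ugCount G a) ≤ G.length := by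
    refine le_trans ?_ h5
    rw [← mul_assoc]
    gcongr <;> omega
  rw [e1, e2, e3, add_comm]
  exact key.trans (Nat.add_le_add_left
    (Nat.mul_le_mul_left _ ((Nat.mul_le_mul_left _ ha).trans h6)) _)

end Vale.Agent.P318M
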