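import Vale.Agent.P318M.Spec

open Finset

namespace Vale.Agent.P318M

open Vale.Agent.P325 Vale.Agent.Lib.PolyTime

namespace BaseYesAux

variable {k : ℕ}

theorem cd_eq (x : Cube k) :
    cd x = (finFunctionFinEquiv fun i => if x i = true then (1 : Fin 2) else 0 : Fin (2 ^ k)) := by
  rw [finFunctionFinEquiv_apply]
  exact sum_congr rfl fun i _ => by split_ifs <;> simp

theorem cd_lt (x : Cube k) : cd x < 2 ^ k := by
  rw [cd_eq]
  exact Fin.isLt _

theorem cd_inj {x y : Cube k} (h : cd x = cd y) : x = y := by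
  rw [cd_eq, cd_eq] at h
  funext i
  have e := congrFun (finFunctionFinEquiv.injective (Fin.ext h)) i
  revert e
  cases x i <;> cases y i <;> simp

theorem vx_inj {u v : ℕ} {x y : Cube k} (h : vx u x = vx v y) : u = v ∧ x = y := by
  have p : 0 < 2 ^ k := by positivity
  have e : ∀ (u : ℕ) (x : Cube k), vx u x / 2 ^ k = u := fun u x => by
    rw [vx, add_comm, Nat.add_mul_div_right _ _ p, Nat.div_eq_of_lt (cd_lt x), zero_add]
  have e1 : u = v := by rw [← e u x, h, e]
  subst e1
  exact ⟨rfl, cd_inj (Nat.add_left_cancel h)⟩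

theorem aa_eq (j : Fin k) : aa (fun x : Cube k => x j) = 2 ^ k := by
  simp [aa, ant]

theorem inf_eq (j i : Fin k) : inf (fun x : Cube k => x j) i = if i = j then 2 ^ k else 0 := by
  split_ifs with h
  · simp [inf, flp, h]
  · simp [inf, flp, Function.update_of_ne (Ne.symm h)]

theorem dis_le (π : Equiv.Perm (Fin k)) (f g : Cube k → Bool) : dis π f g ≤ 2 ^ k :=
  (card_filter_le _ _).trans (by simp)

theorem dis_eq (π : Equiv.Perm (Fin k)) (j : Fin k) :
    dis π (fun x : Cube k => x j) (fun x => x (π j)) = 0 := by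
  simp [dis, prm]

theorem cst_le (Λ : ℕ) (a : ℕ → Fin k) (c : ℕ × ℕ × Equiv.Perm (Fin k)) :
    cst Λ (fun u x => x (a u)) c ≤
      2 * 2 ^ k + Λ * 2 ^ k * if a c.2.1 = c.2.2 (a c.1) then 0 else 1 := by
  obtain ⟨u, v, π⟩ := c
  have d := dis_le π (fun x => x (a u)) fun x => x (a v)
  simp only [cst, inf_eq, sum_add_distrib, mul_ite, mul_zero, sum_ite_eq', mem_univ, if_true,
    mul_one]
  by_cases h : a v = π (a u)
  · rw [if_pos h, h, dis_eq, if_neg (c := u = v ∧ π (a u) ≠ a u) fun e => e.2 (by rw [← h, e.1])]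
    omega
  · rw [if_neg h]
    by_cases e : u = v
    · rw [if_pos e]
      split_ifs <;> nlinarith [Nat.zero_le (Λ * 2 ^ k)]
    · rw [if_neg e, if_neg fun q => e q.1]
      nlinarith [Nat.mul_le_mul_left Λ d]

theorem sum_le (Λ : ℕ) (a : ℕ → Fin k) (G : UG k) :
    (G.map fun c => cst Λ (fun u x => x (a u)) c).sum ≤
      2 * 2 ^ k * G.length + Λ * 2 ^ k * (G.length - ugCount G a) := by
  induction G with
  | nil => simp
  | cons c G ih =>
    have h1 := cst_le Λ a c
    have h2 : ugCount G a ≤ G.length := List.countP_le_length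
    have h3 : (c :: G).length - ugCount (c :: G) a =
        (if a c.2.1 = c.2.2 (a c.1) then 0 else 1) + (G.length - ugCount G a) := by
      unfold ugCount at h2 ⊢
      rw [List.countP_cons, List.length_cons]
      by_cases h : a c.2.1 = c.2.2 (a c.1)
      · simp [h]
      · simp only [h, decide_false, Bool.false_eq_true, if_false]
        omega
    rw [h3, List.map_cons, List.sum_cons, List.length_cons, mul_add, mul_add (Λ * 2 ^ k)]
    omega

end BaseYesAux

open Classical BaseYesAux in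
theorem p_baseYes (h1 : CutSum) : BaseYes := by
  intro k Λ G a
  obtain ⟨S, hS⟩ : ∃ S : ℕ → Bool, ∀ (u : ℕ) (x : Cube k), S (vx u x) = x (a u) := by
    refine ⟨fun y => decide (∃ (u : ℕ) (x : Cube k), vx u x = y ∧ x (a u) = true), fun u x => ?_⟩
    rw [Bool.eq_iff_iff, decide_eq_true_iff]
    refine ⟨fun ⟨v, y, e, h⟩ => ?_, fun h => ⟨u, x, rfl, h⟩⟩
    obtain ⟨rfl, rfl⟩ := vx_inj e
    exact h
  obtain ⟨e1, e2, e3, -⟩ := h1 k Λ G S
  refine ⟨S, ?_, ?_⟩
  · rw [e1, e2]
    simp only [hS, aa_eq, List.map_const', List.sum_replicate, smul_eq_mul]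
    ring
  · rw [e1, e3]
    simp only [hS]
    exact sum_le Λ a G

end Vale.Agent.P318M
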