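import Vale.Agent.P318M.Spec

open Finset

namespace Vale.Agent.P318M

open Vale.Agent.P325 Vale.Agent.Lib.PolyTime

namespace CountAux

theorem two {ι A : Type} [Fintype ι] [DecidableEq ι] [Fintype A] [DecidableEq A] (u v : ι)
    (α β : A) (h : u = v → α = β) (S : Finset (ι → A)) (hS : ∀ r, r u = α → r v = β → r ∈ S) :
    Fintype.card (ι → A) ≤ Fintype.card A ^ 2 * S.card := by
  have := card_le_card_of_injOn (s := (univ : Finset (ι → A)))
    (t := (univ : Finset (A × A)) ×ˢ S)
    (fun r => ((r u, r v), Function.update (Function.update r u α) v β))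
    (fun r _ => by
      refine mem_coe.2 (mem_product.2 ⟨mem_univ _, hS _ ?_ (Function.update_self ..)⟩)
      dsimp only
      by_cases c : u = v
      · rw [h c, c]
        exact Function.update_self ..
      · rw [Function.update_of_ne c, Function.update_self])
    (fun r _ r' _ e => by
      simp only [Prod.mk.injEq] at e
      funext w
      by_cases c1 : w = u
      · rw [c1, e.1.1]
      · by_cases c2 : w = v
        · rw [c2, e.1.2]
        · have := congrFun e.2 w
          simpa only [Function.update_of_ne c1, Function.update_of_ne c2] using this)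
  rwa [card_product, card_univ, card_univ, Fintype.card_prod, ← sq] at this

theorem avg {Ω C : Type} [Fintype Ω] (D : C → Bool) (sat : Ω → C → Bool) (M : ℕ) (G : List C)
    (h : ∀ c ∈ G, D c = true → Fintype.card Ω ≤ M * (univ.filter fun r => sat r c = true).card) :
    ∑ _r : Ω, G.countP D ≤ ∑ r : Ω, M * G.countP (sat r) := by
  induction G with
  | nil => simp
  | cons c G ih =>
    have h1 := ih fun c' hc' => h c' (List.mem_cons_of_mem _ hc')
    simp only [List.countP_cons, mul_add, sum_add_distrib]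
    refine add_le_add h1 ?_
    by_cases d : D c = true
    · have h2 := h c (List.mem_cons_self ..) d
      rw [← mul_sum, ← card_filter]
      simpa [d] using h2
    · simp [d]

theorem names {k : ℕ} (G : UG k) : ∃ N, ∀ c ∈ G, c.1 < N ∧ c.2.1 < N := by
  induction G with
  | nil => exact ⟨0, by simp⟩
  | cons c G ih =>
    obtain ⟨N, hN⟩ := ih
    refine ⟨N + c.1 + c.2.1 + 1, fun c' hc' => ?_⟩
    rcases List.mem_cons.1 hc' with rfl | h
    · omega
    · have := hN c' h
      omega

theorem enum {A : Type} (d : A) (R : ℕ) (S : Finset A) :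
    ∃ e : Fin R → A, S.card ≤ R → ∀ i ∈ S, ∃ α, e α = i := by
  refine ⟨fun α => S.toList.getD α d, fun hS i hi => ?_⟩
  obtain ⟨j, hj, e⟩ := List.mem_iff_getElem.1 (mem_toList.2 hi)
  refine ⟨⟨j, hj.trans_le (by rwa [length_toList])⟩, ?_⟩
  rw [← e]
  exact List.getD_eq_getElem _ _ hj

end CountAux

open CountAux in
theorem p_count : Count := by
  classical
  intro k R hk G Lb
  rcases Nat.eq_zero_or_pos R with rfl | hR
  · refine ⟨fun _ => ⟨0, hk⟩, (List.countP_eq_zero.2 fun c _ hc => ?_).le.trans (Nat.zero_le _)⟩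
    obtain ⟨h1, -, i, hi, -⟩ := of_decide_eq_true hc
    exact absurd (card_pos.2 ⟨i, hi⟩) (by omega)
  have : Nonempty (Fin R) := ⟨⟨0, hR⟩⟩
  obtain ⟨N, hN⟩ := names G
  choose e he using fun u => enum (⟨0, hk⟩ : Fin k) R (Lb u)
  obtain ⟨a, ha⟩ : ∃ a : (Fin N → Fin R) → ℕ → Fin k, ∀ r u (h : u < N), a r u = e u (r ⟨u, h⟩) :=
    ⟨fun r u => if h : u < N then e u (r ⟨u, h⟩) else ⟨0, hk⟩, fun r u h => dif_pos h⟩
  have key := avg (fun c => decide (Dec R Lb c))
    (fun r (c : ℕ × ℕ × Equiv.Perm (Fin k)) => decide (a r c.2.1 = c.2.2 (a r c.1))) (R ^ 2) G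
    fun c hc hD => by
      obtain ⟨h1, h2, i, hi, hj, hf⟩ := of_decide_eq_true hD
      obtain ⟨α, hα⟩ := he _ h1 i hi
      obtain ⟨n1, n2⟩ := hN c hc
      obtain ⟨β, hβ, hαβ⟩ : ∃ β, e c.2.1 β = c.2.2 i ∧ (c.1 = c.2.1 → α = β) := by
        by_cases q : c.1 = c.2.1
        · exact ⟨α, by rw [← q, hα, hf q], fun _ => rfl⟩
        · obtain ⟨β, hβ⟩ := he _ h2 _ hj
          exact ⟨β, hβ, fun h => absurd h q⟩
      have := two (⟨c.1, n1⟩ : Fin N) ⟨c.2.1, n2⟩ α β (fun h => hαβ (Fin.mk.inj h))
        (univ.filter fun r => decide (a r c.2.1 = c.2.2 (a r c.1)) = true) fun r r1 r2 => by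
          refine mem_filter.2 ⟨mem_univ _, decide_eq_true ?_⟩
          rw [ha r _ n1, ha r _ n2, r1, r2, hα, hβ]
      rwa [Fintype.card_fin] at this
  obtain ⟨r, -, hr⟩ := exists_le_of_sum_le univ_nonempty key
  exact ⟨a r, hr⟩

end Vale.Agent.P318M
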