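import Vale.Agent.P318M.Spec

open Finset

namespace Vale.Agent.P318M

open Vale.Agent.P325 Vale.Agent.Lib.PolyTime

namespace CutSumAux

theorem cut_flat {α : Type} (l : List α) (F : α → WL) (S : ℕ → Bool) :
    cut (l.flatMap F) S = (l.map fun a => cut (F a) S).sum := by
  induction l with
  | nil => rfl
  | cons a l ih =>
    rw [List.flatMap_cons, List.map_cons, List.sum_cons, ← ih, cut, List.map_append,
      List.sum_append, cut, cut]

theorem cut_cons (u v w : ℕ) (L : WL) (S : ℕ → Bool) :
    cut ((u, v, w) :: L) S = w * (if S u ≠ S v then 1 else 0) + cut L S := by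
  rw [cut, List.map_cons, List.sum_cons, cut]
  by_cases h : S u = S v <;> simp [h]

theorem cut_nil (S : ℕ → Bool) : cut [] S = 0 := rfl

theorem sum_pts {k : ℕ} (F : Cube k → ℕ) : ((pts k).map F).sum = ∑ x, F x := sum_map_toList _ _

theorem count_flat {α : Type} (l : List α) (F : α → List ℕ) (p : ℕ → Bool) :
    (l.flatMap F).countP p = (l.map fun a => (F a).countP p).sum := List.countP_flatMap

theorem aa_le {k : ℕ} (f : Cube k → Bool) (b : Bool) :
    aa f ≤ 2 * ∑ x, if (f x != b) = true then 1 else 0 := by
  have e : Function.Involutive (ant (k := k)) := fun x => funext fun i => Bool.not_not _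
  rw [two_mul]
  nth_rewrite 2 [← Equiv.sum_comp e.toPerm]
  rw [aa, card_filter, ← sum_add_distrib]
  refine sum_le_sum fun x _ => ?_
  rw [Function.Involutive.coe_toPerm]
  cases f x <;> cases f (ant x) <;> cases b <;> simp

end CutSumAux

open CutSumAux

theorem p_cutSum : CutSum := by
  intro k Λ G S
  have h2 : cut (dem G) S = (G.map fun c => aa (fun x : Cube k => S (vx c.1 x)) +
      aa (fun x : Cube k => S (vx c.2.1 x))).sum := by
    simp only [dem, cut_flat, sum_pts, cut_cons, cut_nil, one_mul, add_zero, sum_add_distrib, aa,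
      card_filter]
  refine ⟨?_, h2, ?_, fun b => ?_⟩
  · simp [occ, List.length_flatMap, pts, mul_comm]
  · simp only [sup, cut_flat, sum_pts, cut_cons, cut_nil, one_mul, add_zero, ← Fin.sum_univ_def,
      cst, dis, inf, card_filter, mul_sum, ← sum_add_distrib]
    refine congrArg List.sum (List.map_congr_left fun c _ => ?_)
    rw [sum_add_distrib, sum_comm]
  · rw [h2, occ, count_flat, ← List.sum_map_mul_left]
    refine List.sum_le_sum fun c _ => ?_
    simp only [count_flat, sum_pts, List.countP_cons, List.countP_nil, zero_add, sum_add_distrib]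
    linarith [aa_le (fun x : Cube k => S (vx c.1 x)) b, aa_le (fun x : Cube k => S (vx c.2.1 x)) b]

end Vale.Agent.P318M
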