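import Vale.Agent.P318M.Spec
import Vale.Agent.P063.Bonami

open Finset

namespace Vale.Agent.P318M

open Vale.Agent.P325 Vale.Agent.Lib.PolyTime

namespace KklAux

open Vale.Agent.P063

variable {k : ℕ}

lemma h0 : (0 : ℝ) < 1 / 2 := by norm_num

lemma h1 : (1 / 2 : ℝ) < 1 := by norm_num

lemma ex_half (G : Cube k → ℝ) : Ex (1 / 2) G = (∑ x, G x) / 2 ^ k := by
  unfold Ex
  rw [sum_div]
  refine sum_congr rfl fun x _ => ?_
  have : wt (1 / 2 : ℝ) x = (1 / 2) ^ k := by
    unfold wt
    rw [prod_congr rfl (g := fun _ => (1 / 2 : ℝ)) fun i _ => by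
      cases x i <;> norm_num [om]]
    simp
  rw [this, one_div, inv_pow]
  ring

/-- The indicator. -/
noncomputable def ind (f : Cube k → Bool) (x : Cube k) : ℝ := if f x = true then 1 else 0

lemma ind_sq (f : Cube k → Bool) (x y : Cube k) :
    (ind f x - ind f y) ^ 2 = if f x ≠ f y then 1 else 0 := by
  unfold ind
  cases f x <;> cases f y <;> simp

lemma ind_abs (f : Cube k → Bool) (x y : Cube k) :
    |ind f x - ind f y| = (ind f x - ind f y) ^ 2 := by
  unfold ind
  cases f x <;> cases f y <;> simp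

lemma lap_eq (f : Cube k → Bool) (i : Fin k) (x : Cube k) :
    ind f x - avg (1 / 2) {i} (ind f) x = (ind f x - ind f (flp x i)) / 2 := by
  rw [avg_single]
  unfold flp
  cases h : x i
  · have : Function.update x i false = x := by rw [← h]; exact Function.update_eq_self i x
    rw [this]; simp only [Bool.not_false]; ring
  · have : Function.update x i true = x := by rw [← h]; exact Function.update_eq_self i x
    rw [this]; simp only [Bool.not_true]; ring

/-- Fourier weight on the sets containing `i`. -/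
noncomputable def et (f : Cube k → Bool) (i : Fin k) : ℝ :=
  ∑ T : Finset (Fin k), if i ∈ T then co (1 / 2) (ind f) T ^ 2 else 0

/-- The low degree part of it. -/
noncomputable def lo (f : Cube k → Bool) (d : ℕ) (i : Fin k) : ℝ :=
  ∑ T : Finset (Fin k), if i ∈ T ∧ T.card ≤ d then co (1 / 2) (ind f) T ^ 2 else 0

lemma co_lap (f : Cube k → Bool) (i : Fin k) (T : Finset (Fin k)) :
    co (1 / 2) (fun x => (ind f x - ind f (flp x i)) / 2) T
      = if i ∈ T then co (1 / 2) (ind f) T else 0 := by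
  have : (fun x => (ind f x - ind f (flp x i)) / 2)
      = fun x => ind f x - avg (1 / 2) {i} (ind f) x := funext fun x => (lap_eq f i x).symm
  rw [this, co_sub, co_avg h0 h1]
  by_cases h : i ∈ T <;> simp [h]

lemma et_eq (f : Cube k → Bool) (i : Fin k) :
    Ex (1 / 2) (fun x => ((ind f x - ind f (flp x i)) / 2) ^ 2) = et f i := by
  rw [parseval h0 h1]
  refine sum_congr rfl fun T _ => ?_
  rw [co_lap]; split_ifs <;> simp

lemma et_inf (f : Cube k → Bool) (i : Fin k) : (inf f i : ℝ) = 4 * 2 ^ k * et f i := by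
  rw [← et_eq, ex_half]
  simp only [div_pow, ind_sq]
  rw [← sum_div, sum_boole]
  unfold inf
  field_simp
  norm_num

lemma et_nonneg (f : Cube k → Bool) (i : Fin k) : 0 ≤ et f i :=
  sum_nonneg fun T _ => by split_ifs <;> positivity

lemma lo_sq (f : Cube k → Bool) (d : ℕ) (i : Fin k) :
    lo f d i ^ 2 ≤ 4 * 16 ^ d * et f i ^ 3 := by
  have hη0 := et_nonneg f i
  set X := lo f d i with hX
  set η := et f i with hη
  set c : Finset (Fin k) → ℝ :=
    fun T => if i ∈ T ∧ T.card ≤ d then co (1 / 2) (ind f) T else 0 with hc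
  set g : Cube k → ℝ := fun x => ∑ T : Finset (Fin k), c T * chi (1 / 2) T x with hg
  set L : Cube k → ℝ := fun x => (ind f x - ind f (flp x i)) / 2 with hL
  have hc2 : ∑ T : Finset (Fin k), c T ^ 2 = X :=
    sum_congr rfl fun T _ => by simp only [hc]; split_ifs <;> simp
  have g4 : Ex (1 / 2) (fun x => g x ^ 4) ≤ 16 ^ d * X ^ 2 := by
    rw [← hc2]
    have := bonami h0 h1 c d (by
      intro T hT
      simp only [hc]; rw [if_neg]; rintro ⟨_, h⟩; omega)
    have e : (4 / (1 / 2 * (1 - 1 / 2)) : ℝ) = 16 := by norm_num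
    rwa [e] at this
  have Lg : Ex (1 / 2) (fun x => L x * g x) = X := by
    rw [plancherel h0 h1]
    refine sum_congr rfl fun T _ => ?_
    rw [hL, co_lap, hg, co_sum h0 h1]
    simp only [hc]
    by_cases h : i ∈ T ∧ T.card ≤ d
    · rw [if_pos h, if_pos h, if_pos h.1]; ring
    · rw [if_neg h, if_neg h]; ring
  have L2 : Ex (1 / 2) (fun x => L x ^ 2) = η := et_eq f i
  have L1 : Ex (1 / 2) (fun x => |L x|) = 2 * η := by
    rw [← L2, ← Ex_mul_left]
    refine Ex_congr fun x => ?_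
    simp only [hL]
    rw [abs_div, ind_abs, abs_two]; ring
  have c1 : X ^ 2 ≤ (2 * η) * Ex (1 / 2) (fun x => |L x| * g x ^ 2) := by
    rw [← Lg, ← L1]
    apply Ex_cs' h0 h1
    · intro x; positivity
    · intro x; positivity
    · intro x; apply le_of_eq; rw [← mul_assoc, ← sq, sq_abs]; ring
  have c2 : Ex (1 / 2) (fun x => |L x| * g x ^ 2) ^ 2 ≤ η * (16 ^ d * X ^ 2) := by
    have := Ex_cs h0 h1 (fun x => |L x|) (fun x => g x ^ 2)
    simp only [← pow_mul, sq_abs] at this
    rw [L2] at this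
    exact this.trans (mul_le_mul_of_nonneg_left g4 hη0)
  set Y := Ex (1 / 2) (fun x => |L x| * g x ^ 2)
  by_cases hX0 : X = 0
  · rw [hX0]
    have : 0 ≤ 4 * 16 ^ d * η ^ 3 := by positivity
    simpa using this
  · have hXp : 0 < X ^ 2 := by positivity
    have c3 : (X ^ 2) ^ 2 ≤ (2 * η * Y) ^ 2 := pow_le_pow_left₀ hXp.le c1 2
    have c4 : X ^ 2 * X ^ 2 ≤ (4 * 16 ^ d * η ^ 3) * X ^ 2 := by
      have : (2 * η * Y) ^ 2 = 4 * η ^ 2 * Y ^ 2 := by ring
      have h5 : 4 * η ^ 2 * Y ^ 2 ≤ 4 * η ^ 2 * (η * (16 ^ d * X ^ 2)) :=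
        mul_le_mul_of_nonneg_left c2 (by positivity)
      nlinarith
    exact le_of_mul_le_mul_right c4 hXp

/-- The variance. -/
noncomputable def va (f : Cube k → Bool) : ℝ :=
  ∑ T : Finset (Fin k), if T = ∅ then 0 else co (1 / 2) (ind f) T ^ 2

lemma va_eq (f : Cube k → Bool) :
    Ex (1 / 2) (fun x => (ind f x - Ex (1 / 2) (ind f)) ^ 2) = va f := by
  rw [parseval h0 h1]
  refine sum_congr rfl fun T _ => ?_
  have e : co (1 / 2) (fun _ : Cube k => Ex (1 / 2) (ind f)) T
      = if T = ∅ then Ex (1 / 2) (ind f) else 0 := by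
    unfold co
    rw [Ex_mul_left, Ex_chi h0 h1]; split_ifs <;> simp
  rw [co_sub, e]
  split_ifs with h
  · rw [h, co_empty]; simp
  · simp

lemma aa_le (f : Cube k → Bool) : (aa f : ℝ) ≤ 4 * 2 ^ k * va f := by
  set μ := Ex (1 / 2) (ind f)
  have hi : Function.Involutive (ant (k := k)) := fun x => funext fun i => by simp [ant]
  have e1 : ∑ x, (ind f (ant x) - μ) ^ 2 = ∑ x, (ind f x - μ) ^ 2 :=
    Equiv.sum_comp hi.toPerm (fun x => (ind f x - μ) ^ 2)
  have e2 : (aa f : ℝ) = ∑ x, (ind f x - ind f (ant x)) ^ 2 := by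
    simp only [ind_sq]
    rw [sum_boole]; rfl
  have e3 : ∑ x, (ind f x - ind f (ant x)) ^ 2
      ≤ ∑ x, (2 * (ind f x - μ) ^ 2 + 2 * (ind f (ant x) - μ) ^ 2) :=
    sum_le_sum fun x _ => by nlinarith [sq_nonneg (ind f x + ind f (ant x) - 2 * μ)]
  rw [sum_add_distrib, ← mul_sum, ← mul_sum, e1] at e3
  rw [← va_eq, ex_half, e2]
  have : 4 * 2 ^ k * ((∑ x, (ind f x - μ) ^ 2) / 2 ^ k) = 4 * ∑ x, (ind f x - μ) ^ 2 := by
    field_simp
  rw [this]; linarith

lemma va_le (f : Cube k → Bool) (d : ℕ) :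
    d * va f ≤ d * ∑ i, lo f d i + ∑ i, et f i := by
  unfold va lo et
  rw [sum_comm, sum_comm (s := (univ : Finset (Fin k))), mul_sum, mul_sum, ← sum_add_distrib]
  refine sum_le_sum fun T _ => ?_
  set a := co (1 / 2) (ind f) T ^ 2
  have ha : 0 ≤ a := sq_nonneg _
  have e2 : ∑ i : Fin k, (if i ∈ T then a else 0) = T.card * a := by
    rw [sum_ite_mem, univ_inter, sum_const, nsmul_eq_mul]
  rw [e2]
  have hd : (0 : ℝ) ≤ d := Nat.cast_nonneg d
  have hT : (0 : ℝ) ≤ T.card * a := by positivity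
  by_cases h : T.card ≤ d
  · simp only [h, and_true]
    rw [e2]
    split_ifs with h'
    · nlinarith [mul_nonneg hd hT]
    · have : (1 : ℝ) ≤ T.card := by exact_mod_cast card_pos.2 (nonempty_iff_ne_empty.2 h')
      nlinarith [mul_nonneg hd (mul_nonneg (sub_nonneg.2 this) ha)]
  · simp only [h, and_false, if_false, sum_const_zero, mul_zero, zero_add]
    have : (d : ℝ) ≤ T.card := by exact_mod_cast (not_le.1 h).le
    split_ifs with h'
    · simpa using hT
    · exact mul_le_mul_of_nonneg_right this ha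

end KklAux

open KklAux in
theorem p_kkl : KKL := by
  intro K
  set d := 2 * K + 1 with hd
  set s : ℝ := 1 / ((2 * K + 2) * 4 ^ d) with hs
  have hs0 : 0 < s := by positivity
  refine ⟨s ^ 2, by positivity, fun k f hf => ?_⟩
  have hp : (0 : ℝ) < 2 ^ k := by positivity
  have hlo : ∀ i, lo f d i ≤ 1 / (2 * K + 2) * et f i := by
    intro i
    have a0 := et_nonneg f i
    have a1 : 4 * et f i ≤ s ^ 2 := by
      have := hf i
      rw [et_inf] at this
      exact le_of_mul_le_mul_right (by linarith) hp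
    have a2 : (1 / (2 * K + 2) * et f i) ^ 2 = 16 ^ d * s ^ 2 * et f i ^ 2 := by
      have : (16 : ℝ) ^ d = (4 ^ d) ^ 2 := by rw [← pow_mul, mul_comm, pow_mul]; norm_num
      rw [this, hs]
      field_simp
    refine (abs_le_of_sq_le_sq' ?_ (by positivity)).2
    rw [a2]
    refine (lo_sq f d i).trans ?_
    have : 4 * 16 ^ d * et f i ^ 3 = 16 ^ d * (4 * et f i) * et f i ^ 2 := by ring
    rw [this]
    gcongr
  set H := ∑ i, et f i with hH
  have hH0 : 0 ≤ H := sum_nonneg fun i _ => et_nonneg f i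
  have b1 : ∑ i, lo f d i ≤ 1 / (2 * K + 2) * H := by
    rw [hH, mul_sum]; exact sum_le_sum fun i _ => hlo i
  have b2 := va_le f d
  have hdR : (d : ℝ) = 2 * K + 1 := by rw [hd]; push_cast; ring
  have hK : (0 : ℝ) ≤ K := Nat.cast_nonneg K
  have b3 : K * va f ≤ H := by
    have c1 : (2 * K + 1 : ℝ) * (1 / (2 * K + 2) * H) ≤ H := by
      rw [← mul_assoc]
      refine mul_le_of_le_one_left hH0 ?_
      rw [mul_one_div, div_le_one (by positivity)]; linarith
    have c2 : (2 * K + 1 : ℝ) * va f ≤ 2 * H := by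
      rw [hdR] at b2
      have := mul_le_mul_of_nonneg_left b1 (show (0 : ℝ) ≤ 2 * K + 1 by positivity)
      linarith
    have c3 : 0 ≤ va f := sum_nonneg fun T _ => by split_ifs <;> positivity
    nlinarith
  have b4 : ((∑ i, inf f i : ℕ) : ℝ) = 4 * 2 ^ k * H := by
    push_cast
    rw [hH, mul_sum]; exact sum_congr rfl fun i _ => et_inf f i
  have b5 : ((K * aa f : ℕ) : ℝ) ≤ ((∑ i, inf f i : ℕ) : ℝ) := by
    rw [b4]; push_cast
    have := mul_le_mul_of_nonneg_left (aa_le f) hK
    have := mul_le_mul_of_nonneg_left b3 (show (0 : ℝ) ≤ 4 * 2 ^ k by positivity)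
    nlinarith
  exact_mod_cast b5

end Vale.Agent.P318M
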