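import Vale.Agent.P318M.Spec

open Finset

namespace Vale.Agent.P318M

open Vale.Agent.P325 Vale.Agent.Lib.PolyTime

namespace LocalAux

variable {k : ℕ}

theorem card_comp (σ : Cube k → Cube k) (hσ : Function.Bijective σ) (P : Cube k → Prop)
    [DecidablePred P] : (univ.filter fun x => P (σ x)).card = (univ.filter P).card :=
  card_bijective σ hσ fun x => by simp

theorem flp_bij (i : Fin k) : Function.Bijective fun x : Cube k => flp x i :=
  Function.Involutive.bijective fun x => by simp [flp]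

theorem prm_bij (π : Equiv.Perm (Fin k)) : Function.Bijective (prm π) :=
  Function.bijective_iff_has_inverse.2 ⟨prm π.symm, fun x => funext fun i => by simp [prm],
    fun x => funext fun i => by simp [prm]⟩

theorem prm_flp (π : Equiv.Perm (Fin k)) (x : Cube k) (i : Fin k) :
    prm π (flp x i) = flp (prm π x) (π i) := by
  funext j
  by_cases h : j = π i
  · simp [prm, flp, h]
  · have : π.symm j ≠ i := fun e => h (by rw [← e, Equiv.apply_symm_apply])
    simp [prm, flp, h, this]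

theorem inf_prm (π : Equiv.Perm (Fin k)) (g : Cube k → Bool) (i : Fin k) :
    inf (fun x => g (prm π x)) i = inf g (π i) := by
  unfold inf
  simp only [prm_flp]
  exact card_comp _ (prm_bij π) fun y => g y ≠ g (flp y (π i))

theorem tri (f h : Cube k → Bool) (i : Fin k) :
    inf f i ≤ inf h i + 2 * (univ.filter fun x => f x ≠ h x).card := by
  have s : (univ.filter fun x => f x ≠ f (flp x i)) ⊆ (univ.filter fun x => h x ≠ h (flp x i)) ∪
      ((univ.filter fun x => f x ≠ h x) ∪ univ.filter fun x => f (flp x i) ≠ h (flp x i)) := by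
    intro x hx
    simp only [mem_filter, mem_union, mem_univ, true_and] at hx ⊢
    by_contra c
    simp only [not_or, not_not] at c
    exact hx (c.2.1.trans (c.1.trans c.2.2.symm))
  have e := card_comp _ (flp_bij i) fun x => f x ≠ h x
  have a := (card_le_card s).trans ((card_union_le _ _).trans
    (Nat.add_le_add_left (card_union_le _ _) _))
  unfold inf
  omega

theorem key (π : Equiv.Perm (Fin k)) (f g : Cube k → Bool) (i : Fin k) :
    inf f i ≤ inf g (π i) + 2 * dis π f g ∧ inf g (π i) ≤ inf f i + 2 * dis π f g := by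
  rw [← inf_prm]
  refine ⟨tri f _ i, (tri _ f i).trans (le_of_eq ?_)⟩
  unfold dis
  simp only [ne_comm]

theorem aa_le (f : Cube k → Bool) : aa f ≤ 2 ^ k :=
  (card_filter_le _ _).trans (by simp)

theorem lab_le {K R : ℕ} {τ : ℝ} (hτ : 0 < τ) (hR : 4 * (K : ℝ) ≤ R * τ) {f : Cube k → Bool}
    (h : ∑ i, inf f i < 2 * K * 2 ^ k) : (lab τ f).card ≤ R := by
  have a : (lab τ f).card • (τ / 2 * 2 ^ k) ≤ ∑ i ∈ lab τ f, (inf f i : ℝ) :=
    card_nsmul_le_sum _ _ _ fun i hi => (mem_filter.1 hi).2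
  have b : ∑ i ∈ lab τ f, (inf f i : ℝ) ≤ ∑ i, (inf f i : ℝ) :=
    sum_le_sum_of_subset_of_nonneg (subset_univ _) fun _ _ _ => Nat.cast_nonneg _
  have c : ∑ i, (inf f i : ℝ) < 2 * K * 2 ^ k := by exact_mod_cast h
  have p : (0 : ℝ) < 2 ^ k := by positivity
  rw [nsmul_eq_mul] at a
  have d : ((lab τ f).card : ℝ) * (τ / 2 * 2 ^ k) ≤ R * (τ / 2 * 2 ^ k) := by nlinarith
  exact_mod_cast le_of_mul_le_mul_right d (by positivity)

theorem mem_lab {τ : ℝ} {f : Cube k → Bool} {i : Fin k} (h : τ / 2 * 2 ^ k ≤ (inf f i : ℝ)) :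
    i ∈ lab τ f := mem_filter.2 ⟨mem_univ _, h⟩

end LocalAux

theorem p_local : Local := by
  rintro K Λ R τ hτ hΛ hR k hK f ⟨u, v, π⟩
  have p : (0 : ℝ) < 2 ^ k := by positivity
  have tp : 0 < τ * 2 ^ k := mul_pos hτ p
  have top : K * (aa (f u) + aa (f v)) ≤ 2 * K * 2 ^ k := by
    nlinarith [Nat.mul_le_mul_left K (LocalAux.aa_le (f u)),
      Nat.mul_le_mul_left K (LocalAux.aa_le (f v))]
  have e : cst Λ f (u, v, π) = (if u = v then 0 else Λ) * dis π (f u) (f v) +
      (∑ i, inf (f u) i + ∑ i, (if u = v ∧ π i ≠ i then Λ else 0) * inf (f u) i +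
        ∑ i, inf (f v) i) := by
    simp only [cst, add_mul, one_mul, sum_add_distrib]
  rw [e]
  dsimp only [Dec]
  rcases le_or_gt (2 * K * 2 ^ k) (∑ i, inf (f u) i) with h1 | h1
  · right; omega
  rcases le_or_gt (2 * K * 2 ^ k) (∑ i, inf (f v) i) with h2 | h2
  · right; omega
  have l1 := LocalAux.lab_le hτ hR h1
  have l2 := LocalAux.lab_le hτ hR h2
  by_cases hs : (∀ i, (inf (f u) i : ℝ) ≤ τ * 2 ^ k) ∧ ∀ i, (inf (f v) i : ℝ) ≤ τ * 2 ^ k
  · right
    have := hK _ hs.1
    have := hK _ hs.2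
    rw [mul_add]
    omega
  by_cases huv : u = v
  · subst huv
    rw [and_self, not_forall] at hs
    obtain ⟨i, hi⟩ := hs
    rw [not_le] at hi
    by_cases hp : π i = i
    · have := LocalAux.mem_lab (τ := τ) (f := f u) (i := i) (by linarith)
      exact Or.inl ⟨l1, l2, i, this, hp.symm ▸ this, fun _ => hp⟩
    · right
      have a := single_le_sum (f := fun i => (if u = u ∧ π i ≠ i then Λ else 0) * inf (f u) i)
        (fun _ _ => Nat.zero_le _) (mem_univ i)
      rw [if_pos ⟨rfl, hp⟩] at a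
      have b : (2 * K * 2 ^ k : ℝ) ≤ Λ * inf (f u) i := by
        nlinarith [mul_le_mul_of_nonneg_left hi.le (Nat.cast_nonneg Λ),
          mul_le_mul_of_nonneg_right hΛ p.le, mul_nonneg (Nat.cast_nonneg (α := ℝ) K) p.le]
      have c : 2 * K * 2 ^ k ≤ Λ * inf (f u) i := by exact_mod_cast b
      omega
  rw [if_neg huv]
  rcases le_or_gt (2 * K * 2 ^ k) (Λ * dis π (f u) (f v)) with h3 | h3
  · right; omega
  have d0 : (Λ * dis π (f u) (f v) : ℝ) < 2 * K * 2 ^ k := by exact_mod_cast h3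
  have d : (dis π (f u) (f v) : ℝ) < τ * 2 ^ k / 4 :=
    lt_of_mul_lt_mul_left (a := (Λ : ℝ)) (by nlinarith [mul_le_mul_of_nonneg_right hΛ p.le])
      (Nat.cast_nonneg _)
  left
  rw [not_and_or, not_forall, not_forall] at hs
  obtain ⟨i, hi⟩ : ∃ i, τ * 2 ^ k < inf (f u) i ∨ τ * 2 ^ k < inf (f v) (π i) := by
    rcases hs with ⟨i, hi⟩ | ⟨j, hj⟩
    · exact ⟨i, Or.inl (not_le.1 hi)⟩
    · exact ⟨π.symm j, Or.inr (by rw [Equiv.apply_symm_apply]; exact not_le.1 hj)⟩
  obtain ⟨k1, k2⟩ := LocalAux.key π (f u) (f v) i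
  have k1 : (inf (f u) i : ℝ) ≤ inf (f v) (π i) + 2 * dis π (f u) (f v) := by exact_mod_cast k1
  have k2 : (inf (f v) (π i) : ℝ) ≤ inf (f u) i + 2 * dis π (f u) (f v) := by exact_mod_cast k2
  refine ⟨l1, l2, i, LocalAux.mem_lab ?_, LocalAux.mem_lab ?_, fun h => absurd h huv⟩ <;>
    rcases hi with hi | hi <;> linarith

end Vale.Agent.P318M
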