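import Vale.Agent.P318M.Spec

open Finset

namespace Vale.Agent.P318M

open Vale.Agent.P325 Vale.Agent.Lib.PolyTime

namespace PTBaseAux

/-- The table of a permutation. -/
def tb {k : ℕ} (π : Equiv.Perm (Fin k)) : List ℕ := List.ofFn fun i => (π i : ℕ)

theorem tb_inj {k : ℕ} : Function.Injective (tb (k := k)) := fun _ _ h =>
  Equiv.ext fun i => Fin.ext (congrFun (List.ofFn_injective h) i)

theorem nats_cons {k : ℕ} (c : ℕ × ℕ × Equiv.Perm (Fin k)) (G : UG k) :
    natsUG (c :: G) = c.1 :: c.2.1 :: (tb c.2.2 ++ natsUG G) := by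
  simp [natsUG, tb]

theorem tb_len {k : ℕ} (π : Equiv.Perm (Fin k)) : (tb π).length = k := by simp [tb]

theorem len {k : ℕ} (G : UG k) : (natsUG G).length = G.length * (k + 2) := by
  induction G with
  | nil => simp [natsUG]
  | cons c G ih =>
    rw [nats_cons]
    simp only [List.length_cons, List.length_append, tb_len, ih]
    ring

theorem drp {k : ℕ} (j : ℕ) :
    ∀ G : UG k, (natsUG G).drop (j * (k + 2)) = natsUG (G.drop j) := by
  induction j with
  | zero => simp
  | succ j ih =>
    intro G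
    cases G with
    | nil => simp [natsUG]
    | cons c G =>
      have e : (j + 1) * (k + 2) = ((tb c.2.2).length + j * (k + 2)) + 1 + 1 := by
        rw [tb_len]; ring
      rw [nats_cons, e, List.drop_succ_cons, List.drop_succ_cons, List.drop_succ_cons,
        ← List.drop_drop, List.drop_left, ih]

theorem fm_range {α β : Type} (G : List α) (H : α → List β) (H' : ℕ → List β)
    (h : ∀ j (hj : j < G.length), H' j = H G[j]) :
    G.flatMap H = (List.range G.length).flatMap H' := by
  rw [List.flatMap_def, List.flatMap_def]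
  refine congrArg _ (List.ext_getElem (by simp) fun j h1 h2 => ?_)
  simp only [List.getElem_map, List.getElem_range]
  exact (h j (by simpa using h1)).symm

theorem ptG {k : ℕ} {β : Type} [Enc β] [Inhabited β] (f : CNF3 → UG k)
    (hf : PT fun φ => natsUG (f φ)) (F : Equiv.Perm (Fin k) → ℕ → ℕ → List β)
    (hF : ∀ π, PT fun p : ℕ × ℕ => F π p.1 p.2) :
    PT fun φ => (f φ).flatMap fun c => F c.2.2 c.1 c.2.1 := by
  classical
  have hm : PT fun p : CNF3 × ℕ => (natsUG (f p.1)).drop (p.2 * (k + 2)) :=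
    PT.drop (by fun_prop) (hf.comp (f := fun p : CNF3 × ℕ => p.1) (by fun_prop))
  have hg := PT.take (PT.const k) hm.tail.tail
  have hu := PT.mk (hm.headD (PT.const 0)) (hm.tail.headD (PT.const 0))
  have h1 := pt_cases_list hg
    (fun b p => F (Function.invFun tb b) (((natsUG (f p.1)).drop (p.2 * (k + 2))).headD 0)
      (((natsUG (f p.1)).drop (p.2 * (k + 2))).tail.headD 0)) (fun _ => []) (PT.const [])
    ((univ : Finset (Equiv.Perm (Fin k))).toList.map tb) fun b _ => (hF _).comp hu
  have hr : PT fun φ => List.range ((natsUG (f φ)).length / (k + 2)) :=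
    PT.range (pt_div hf.length (PT.const _)) (hf.pb_length.of_le fun _ => Nat.div_le_self _ _)
  have key : ∀ H : CNF3 × ℕ → List β, PT H →
      PT fun φ => (List.range ((natsUG (f φ)).length / (k + 2))).flatMap fun j => H (φ, j) :=
    fun H hH => PT.flatMap (f := fun φ j => H (φ, j)) hH hr
  refine (key _ h1).congr fun φ => ?_
  rw [len, Nat.mul_div_cancel _ (by omega)]
  refine fm_range _ _ _ fun j hj => ?_
  have e : (natsUG (f φ)).drop (j * (k + 2)) =
      (f φ)[j].1 :: (f φ)[j].2.1 :: (tb (f φ)[j].2.2 ++ natsUG ((f φ).drop (j + 1))) := by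
    rw [drp, List.drop_eq_getElem_cons hj, nats_cons]
  have e2 : (tb (f φ)[j].2.2 ++ natsUG ((f φ).drop (j + 1))).take k = tb (f φ)[j].2.2 :=
    List.take_left' (tb_len _)
  simp only [e, List.tail_cons, List.headD_cons, e2]
  rw [if_pos (List.mem_map_of_mem (by simp)), Function.leftInverse_invFun tb_inj]

end PTBaseAux

open PTBaseAux in
theorem p_ptBase : PTBase := by
  intro k Λ f hf
  refine ⟨?_, ?_, ?_⟩
  · refine ptG f hf (fun _ u v => (pts k).flatMap fun x => [vx u x, vx v x]) fun π => ?_
    refine pt_flatMap_const _ (fun (p : ℕ × ℕ) x => [vx p.1 x, vx p.2 x]) fun x _ => ?_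
    unfold vx
    fun_prop
  · refine ptG f hf (fun π u v => (pts k).flatMap fun x =>
      (vx u x, vx v (prm π x), if u = v then 0 else Λ) ::
        (List.finRange k).flatMap fun i =>
          [(vx u x, vx u (flp x i), 1 + if u = v ∧ π i ≠ i then Λ else 0),
            (vx v x, vx v (flp x i), 1)]) fun π => ?_
    refine pt_flatMap_const _ (fun (p : ℕ × ℕ) x =>
      (vx p.1 x, vx p.2 (prm π x), if p.1 = p.2 then 0 else Λ) ::
        (List.finRange k).flatMap fun i =>
          [(vx p.1 x, vx p.1 (flp x i), 1 + if p.1 = p.2 ∧ π i ≠ i then Λ else 0),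
            (vx p.2 x, vx p.2 (flp x i), 1)]) fun x _ => PT.cons ?_ ?_
    · unfold vx
      fun_prop
    · refine pt_flatMap_const _ (fun (p : ℕ × ℕ) i =>
        [(vx p.1 x, vx p.1 (flp x i), 1 + if p.1 = p.2 ∧ π i ≠ i then Λ else 0),
          (vx p.2 x, vx p.2 (flp x i), 1)]) fun i _ => ?_
      unfold vx
      fun_prop
  · refine ptG f hf (fun _ u v => (pts k).flatMap fun x =>
      [(vx u x, vx u (ant x), 1), (vx v x, vx v (ant x), 1)]) fun π => ?_
    refine pt_flatMap_const _ (fun (p : ℕ × ℕ) x =>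
      [(vx p.1 x, vx p.1 (ant x), 1), (vx p.2 x, vx p.2 (ant x), 1)]) fun x _ => ?_
    unfold vx
    fun_prop

end Vale.Agent.P318M
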