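import Vale.Agent.P318M.Spec

open Finset

namespace Vale.Agent.P318M

open Vale.Agent.P325 Vale.Agent.Lib.PolyTime

namespace PTLevAux

variable {α : Type} [Enc α]

theorem pt_own {n z : α → ℕ} (hn : PT n) (hz : PT z) : PT fun a => own (n a) (z a) :=
  (hz.mul hn).add (PT.const 2)

theorem pt_rel {n i p q y : α → ℕ} (hn : PT n) (hi : PT i) (hp : PT p) (hq : PT q) (hy : PT y) :
    PT fun a => rel (n a) (i a) (p a) (q a) (y a) :=
  PT.ite (PT.eq hy (PT.const 0)) hp (PT.ite (PT.eq hy (PT.const 1)) hq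
    ((((hy.sub (PT.const 2)).mul hn).add hi).add (PT.const 2)))

theorem pt_mapW {ρ : α → ℕ → ℕ} {w : α → ℕ} {L : α → WL}
    (hρ : PT fun x : α × ℕ => ρ x.1 x.2) (hw : PT w) (hL : PT L) :
    PT fun a => mapW (ρ a) (w a) (L a) := by
  have h1 : PT fun x : α × ℕ × ℕ × ℕ => ρ x.1 x.2.1 :=
    hρ.comp (f := fun x : α × ℕ × ℕ × ℕ => (x.1, x.2.1)) (by fun_prop)
  have h2 : PT fun x : α × ℕ × ℕ × ℕ => ρ x.1 x.2.2.1 :=
    hρ.comp (f := fun x : α × ℕ × ℕ × ℕ => (x.1, x.2.2.1)) (by fun_prop)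
  have h3 : PT fun x : α × ℕ × ℕ × ℕ => w x.1 * x.2.2.2 := by fun_prop
  exact PT.map (f := fun a (e : ℕ × ℕ × ℕ) => (ρ a e.1, ρ a e.2.1, w a * e.2.2))
    (h1.mk (h2.mk h3)) hL

theorem pt_step {O : α → List ℕ} {B L : α → WL} (j : ℕ) (hO : PT O) (hB : PT B) (hL : PT L) :
    PT fun a => step (O a) (B a) j (L a) := by
  have hn : PT fun a => 2 * (O a).length + 1 := by fun_prop
  have hz : PT fun x : α × ℕ => own (2 * (O x.1).length + 1) ((O x.1).getD x.2 0) :=
    pt_own (by fun_prop) (by fun_prop)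
  have hz' : PT fun y : (α × ℕ) × ℕ => own (2 * (O y.1.1).length + 1) ((O y.1.1).getD y.1.2 0) :=
    hz.comp (f := fun y : (α × ℕ) × ℕ => y.1) (by fun_prop)
  have hL' : PT fun x : α × ℕ => L x.1 := hL.comp (f := fun x : α × ℕ => x.1) (by fun_prop)
  have h1 : PT fun a => mapW (own (2 * (O a).length + 1)) ((O a).length ^ j) (B a) :=
    pt_mapW (ρ := fun a => own (2 * (O a).length + 1)) (pt_own (by fun_prop) (by fun_prop))
      (pt_pow hO.length (PT.const j) (PB.const j)) hB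
  have h2 : PT fun x : α × ℕ => mapW (rel (2 * (O x.1).length + 1) (2 * x.2 + 1) 0
      (own (2 * (O x.1).length + 1) ((O x.1).getD x.2 0))) 1 (L x.1) :=
    pt_mapW (ρ := fun x : α × ℕ => rel (2 * (O x.1).length + 1) (2 * x.2 + 1) 0
      (own (2 * (O x.1).length + 1) ((O x.1).getD x.2 0)))
      (pt_rel (by fun_prop) (by fun_prop) (PT.const 0) hz' (by fun_prop)) (PT.const 1) hL'
  have h3 : PT fun x : α × ℕ => mapW (rel (2 * (O x.1).length + 1) (2 * x.2 + 2)
      (own (2 * (O x.1).length + 1) ((O x.1).getD x.2 0)) 1) 1 (L x.1) :=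
    pt_mapW (ρ := fun x : α × ℕ => rel (2 * (O x.1).length + 1) (2 * x.2 + 2)
      (own (2 * (O x.1).length + 1) ((O x.1).getD x.2 0)) 1)
      (pt_rel (by fun_prop) (by fun_prop) hz' (PT.const 1) (by fun_prop)) (PT.const 1) hL'
  exact h1.append (PT.flatMap (f := fun a o =>
    mapW (rel (2 * (O a).length + 1) (2 * o + 1) 0
      (own (2 * (O a).length + 1) ((O a).getD o 0))) 1 (L a) ++
    mapW (rel (2 * (O a).length + 1) (2 * o + 2)
      (own (2 * (O a).length + 1) ((O a).getD o 0)) 1) 1 (L a)) (h2.append h3)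
    (PT.range hO.length hO.pb_length))

end PTLevAux

theorem p_ptLev : PTLev := by
  refine ⟨fun O B I0 hO hB j => ?_, ?_⟩
  · induction j with
    | zero => exact PT.const I0
    | succ j ih => exact PTLevAux.pt_step j hO hB ih
  · exact PT.cons (PT.length PT.id) (PT.flatMap
      (f := fun (_ : WL) (e : ℕ × ℕ × ℕ) => [e.1, e.2.1, e.2.2]) (by fun_prop) PT.id)

end Vale.Agent.P318M
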