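import Vale.Agent.P318M.Spec

open Finset

namespace Vale.Agent.P318M

open Vale.Agent.P325 Vale.Agent.Lib.PolyTime

namespace PowNoAux

theorem cnt (O : List ℕ) (p : ℕ → Bool) :
    O.countP p = ∑ o ∈ range O.length, if p (O.getD o 0) = true then 1 else 0 := by
  induction O with
  | nil => simp
  | cons a O ih =>
    rw [List.countP_cons, List.length_cons, sum_range_succ', ih]
    rfl

theorem inv (h1 : CutStep) (O : List ℕ) (E D : WL) (C : ℕ)
    (hE : ∀ S, 2 * C * cut D S ≤ O.length + cut E S)
    (hD : ∀ (S : ℕ → Bool) (b : Bool), cut D S ≤ 2 * O.countP fun z => S z != b) (j : ℕ) :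
    ∀ t, 2 * C ≤ t → j + t = 4 * C → ∀ S : ℕ → Bool, 2 * C * cut (lev O D [] j) S +
      (if S 0 = S 1 then 0 else t * O.length ^ j) ≤ 2 * cut (lev O E [(0, 1, 2 * C)] j) S := by
  induction j with
  | zero =>
    intro t _ h S
    simp only [lev, cut, List.map_nil, List.sum_nil, List.map_cons, List.sum_cons, pow_zero]
    split_ifs <;> omega
  | succ j ih =>
    intro t ht h S
    have key : ∀ i a b, 2 * C * cut (lev O D [] j) (fun y => S (rel (2 * O.length + 1) i a b y)) +
        (if S a = S b then 0 else (t + 1) * O.length ^ j) ≤ 2 * cut (lev O E [(0, 1, 2 * C)] j)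
          fun y => S (rel (2 * O.length + 1) i a b y) :=
      fun i a b => ih (t + 1) (by omega) (by omega) _
    have k2 := sum_le_sum fun o (_ : o ∈ range O.length) =>
      (add_add_add_comm _ _ _ _).symm.le.trans (add_le_add
        (key (2 * o + 1) 0 (own (2 * O.length + 1) (O.getD o 0)))
        (key (2 * o + 2) (own (2 * O.length + 1) (O.getD o 0)) 1))
    simp only [← mul_add] at k2
    rw [sum_add_distrib, ← mul_sum, ← mul_sum] at k2
    simp only [lev, h1 O]
    have e1 := hE fun z => S (own (2 * O.length + 1) z)
    have e2 := hD (fun z => S (own (2 * O.length + 1) z)) (S 0)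
    rw [cnt] at e2
    by_cases h01 : S 0 = S 1
    · rw [if_pos h01]
      have e3 : ∀ z, ((if S 0 = S z then 0 else (t + 1) * O.length ^ j) +
          if S z = S 1 then 0 else (t + 1) * O.length ^ j) =
          2 * ((t + 1) * O.length ^ j) * if (S z != S 0) = true then 1 else 0 := fun z => by
        rw [← h01]
        cases S z <;> cases S 0 <;> simp [two_mul]
      simp only [e3] at k2
      rw [← mul_sum] at k2
      have e4 := Nat.mul_le_mul (Nat.mul_le_mul_right (O.length ^ j)
        (show 2 * C ≤ t + 1 by omega)) e2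
      nlinarith [Nat.zero_le (O.length ^ j * cut E fun z => S (own (2 * O.length + 1) z))]
    · rw [if_neg h01]
      have e3 : ∀ z, ((if S 0 = S z then 0 else (t + 1) * O.length ^ j) +
          if S z = S 1 then 0 else (t + 1) * O.length ^ j) = (t + 1) * O.length ^ j := fun z => by
        revert h01
        cases S z <;> cases S 0 <;> cases S 1 <;> simp
      simp only [e3, sum_const, card_range, smul_eq_mul] at k2
      have e4 := Nat.mul_le_mul_left (O.length ^ j) e1
      rw [pow_succ]
      nlinarith [Nat.zero_le (O.length ^ j * cut E fun z => S (own (2 * O.length + 1) z))]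

end PowNoAux

theorem p_powNo (h1 : CutStep) : PowNo := by
  intro O E D C hE hD S
  have := (Nat.le_add_right _ _).trans
    (PowNoAux.inv h1 O E D C hE hD (2 * C) (2 * C) le_rfl (by omega) S)
  rw [mul_assoc] at this
  omega

end Vale.Agent.P318M
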