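import Vale.Agent.P318M.Spec

open Finset

namespace Vale.Agent.P318M

open Vale.Agent.P325 Vale.Agent.Lib.PolyTime

namespace PowYesAux

theorem cut_nil (S : ℕ → Bool) : cut [] S = 0 := rfl

theorem cut_cons (e : ℕ × ℕ × ℕ) (L : WL) (S : ℕ → Bool) :
    cut (e :: L) S = (if S e.1 = S e.2.1 then 0 else e.2.2) + cut L S := by
  unfold cut
  rw [List.map_cons, List.sum_cons]

theorem cut_append (L L' : WL) (S : ℕ → Bool) : cut (L ++ L') S = cut L S + cut L' S := by
  unfold cut
  rw [List.map_append, List.sum_append]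

theorem cut_mapW (ρ : ℕ → ℕ) (w : ℕ) (L : WL) (S : ℕ → Bool) :
    cut (mapW ρ w L) S = w * cut L fun y => S (ρ y) := by
  induction L with
  | nil => rfl
  | cons e L ih =>
    have h : mapW ρ w (e :: L) = (ρ e.1, ρ e.2.1, w * e.2.2) :: mapW ρ w L := rfl
    rw [h, cut_cons, cut_cons, ih, mul_add]
    by_cases h' : S (ρ e.1) = S (ρ e.2.1)
    · rw [if_pos h', if_pos h', mul_zero]
    · rw [if_neg h', if_neg h']

theorem cut_flat (M : ℕ) (g : ℕ → WL) (S : ℕ → Bool) :
    cut ((List.range M).flatMap g) S = ∑ o ∈ range M, cut (g o) S := by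
  induction M with
  | zero => rfl
  | succ M ih =>
    rw [List.range_succ, List.flatMap_append, cut_append, ih, sum_range_succ,
      List.flatMap_singleton]

theorem cut_const (L : WL) (b : Bool) : cut L (fun _ => b) = 0 := by
  induction L with
  | nil => rfl
  | cons e L ih => rw [cut_cons, ih, if_pos rfl]

/-- The cut of the next level. -/
def nx (O : List ℕ) (S0 S : ℕ → Bool) (y : ℕ) : Bool :=
  if y = 0 then false else if y = 1 then true else
    if (y - 2) % (2 * O.length + 1) = 0 then S0 ((y - 2) / (2 * O.length + 1))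
    else if (y - 2) % (2 * O.length + 1) % 2 = 1 then
      (S0 (O.getD ((y - 2) % (2 * O.length + 1) / 2) 0) && S ((y - 2) / (2 * O.length + 1) + 2))
    else
      (S0 (O.getD ((y - 2) % (2 * O.length + 1) / 2 - 1) 0) ||
        S ((y - 2) / (2 * O.length + 1) + 2))

theorem nx_zero (O : List ℕ) (S0 S : ℕ → Bool) : nx O S0 S 0 = false := rfl

theorem nx_one (O : List ℕ) (S0 S : ℕ → Bool) : nx O S0 S 1 = true := rfl

theorem dm {n q r : ℕ} (h : r < n) : (q * n + r + 2 - 2) / n = q ∧ (q * n + r + 2 - 2) % n = r := by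
  rw [Nat.add_sub_cancel, Nat.mul_comm, Nat.mul_add_div (by omega), Nat.div_eq_of_lt h, add_zero,
    Nat.mul_add_mod, Nat.mod_eq_of_lt h]
  exact ⟨rfl, rfl⟩

theorem nx_own (O : List ℕ) (S0 S : ℕ → Bool) (z : ℕ) :
    nx O S0 S (own (2 * O.length + 1) z) = S0 z := by
  have h := dm (n := 2 * O.length + 1) (q := z) (r := 0) (by omega)
  rw [add_zero] at h
  unfold nx own
  rw [if_neg (by omega), if_neg (by omega), h.1, h.2, if_pos rfl]

theorem nx_odd (O : List ℕ) (S0 S : ℕ → Bool) {o : ℕ} (ho : o < O.length) (q : ℕ) :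
    nx O S0 S (q * (2 * O.length + 1) + (2 * o + 1) + 2) = (S0 (O.getD o 0) && S (q + 2)) := by
  have h := dm (n := 2 * O.length + 1) (q := q) (r := 2 * o + 1) (by omega)
  have e : (2 * o + 1) / 2 = o := by omega
  unfold nx
  rw [if_neg (by omega), if_neg (by omega), h.1, h.2, if_neg (by omega), if_pos (by omega), e]

theorem nx_even (O : List ℕ) (S0 S : ℕ → Bool) {o : ℕ} (ho : o < O.length) (q : ℕ) :
    nx O S0 S (q * (2 * O.length + 1) + (2 * o + 2) + 2) = (S0 (O.getD o 0) || S (q + 2)) := by
  have h := dm (n := 2 * O.length + 1) (q := q) (r := 2 * o + 2) (by omega)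
  have e : (2 * o + 2) / 2 - 1 = o := by omega
  unfold nx
  rw [if_neg (by omega), if_neg (by omega), h.1, h.2, if_neg (by omega), if_neg (by omega), e]

theorem pair (O : List ℕ) (S0 S : ℕ → Bool) (h0 : S 0 = false) (h1 : S 1 = true) {o : ℕ}
    (ho : o < O.length) (L : WL) :
    cut L (fun y => nx O S0 S (rel (2 * O.length + 1) (2 * o + 1) 0
        (own (2 * O.length + 1) (O.getD o 0)) y)) +
      cut L (fun y => nx O S0 S (rel (2 * O.length + 1) (2 * o + 2)
        (own (2 * O.length + 1) (O.getD o 0)) 1 y)) = cut L S := by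
  have e1 : (fun y => nx O S0 S (rel (2 * O.length + 1) (2 * o + 1) 0
      (own (2 * O.length + 1) (O.getD o 0)) y)) = fun y => (S0 (O.getD o 0) && S y) := by
    funext y
    unfold rel
    rcases y with _ | _ | y
    · rw [if_pos rfl, nx_zero, h0, Bool.and_false]
    · rw [if_neg (by omega), if_pos (by omega), nx_own, zero_add, h1, Bool.and_true]
    · rw [if_neg (by omega), if_neg (by omega), nx_odd O S0 S ho]
      rfl
  have e2 : (fun y => nx O S0 S (rel (2 * O.length + 1) (2 * o + 2)
      (own (2 * O.length + 1) (O.getD o 0)) 1 y)) = fun y => (S0 (O.getD o 0) || S y) := by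
    funext y
    unfold rel
    rcases y with _ | _ | y
    · rw [if_pos rfl, nx_own, h0, Bool.or_false]
    · rw [if_neg (by omega), if_pos (by omega), nx_one, zero_add, h1, Bool.or_true]
    · rw [if_neg (by omega), if_neg (by omega), nx_even O S0 S ho]
      rfl
  rw [e1, e2]
  cases S0 (O.getD o 0)
  · simp only [Bool.false_and, Bool.false_or]
    rw [cut_const, zero_add]
  · simp only [Bool.true_and, Bool.true_or]
    rw [cut_const, add_zero]

theorem cut_nx (h1 : CutStep) (O : List ℕ) (S0 S : ℕ → Bool) (h0 : S 0 = false) (h1' : S 1 = true)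
    (B : WL) (j : ℕ) (L : WL) :
    cut (step O B j L) (nx O S0 S) = O.length ^ j * cut B S0 + O.length * cut L S := by
  rw [h1, sum_congr rfl fun o ho => pair O S0 S h0 h1' (mem_range.1 ho) L, sum_const, card_range,
    smul_eq_mul]
  simp only [nx_own]

end PowYesAux

open PowYesAux

theorem p_cutStep : CutStep := by
  intro O B j L S
  unfold step
  rw [cut_append, cut_mapW, cut_flat]
  simp only [cut_append, cut_mapW, one_mul]

theorem p_powYes (h1 : CutStep) : PowYes := by
  intro O E D W S0 hD j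
  induction j with
  | zero =>
    refine ⟨fun y => decide (y = 1), rfl, rfl, ?_, fun _ => ?_⟩
    · rw [zero_mul]
      rfl
    · show cut [(0, 1, W)] _ ≤ _
      rw [cut_cons, cut_nil]
      split_ifs <;> simp
  | succ j ih =>
    obtain ⟨S, s0, s1, e1, e2⟩ := ih
    refine ⟨nx O S0 S, rfl, rfl, ?_, fun hE => ?_⟩
    · show cut (step O D j (lev O D [] j)) _ = _
      rw [cut_nx h1 O S0 S s0 s1, hD, e1]
      ring
    · show cut (step O E j (lev O E [(0, 1, W)] j)) _ ≤ _
      rw [cut_nx h1 O S0 S s0 s1]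
      calc O.length ^ j * cut E S0 + O.length * cut (lev O E [(0, 1, W)] j) S
          ≤ O.length ^ j * (2 * O.length) + O.length * ((W + 2 * j) * O.length ^ j) :=
            add_le_add (Nat.mul_le_mul_left _ hE) (Nat.mul_le_mul_left _ (e2 hE))
        _ = (W + 2 * (j + 1)) * O.length ^ (j + 1) := by ring

end Vale.Agent.P318M
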