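import Vale.Agent.P318M.Main
import Vale.Agent.P318M.Kkl
import Vale.Agent.P318M.PowNo
import Vale.Agent.P318M.PowYes
import Vale.Agent.P318M.CutSum
import Vale.Agent.P318M.BaseYes
import Vale.Agent.P318M.Local
import Vale.Agent.P318M.Count
import Vale.Agent.P318M.BaseNo
import Vale.Agent.P318M.PTBase
import Vale.Agent.P318M.PTLev
import Vale.Agent.P325.FromPCP
import Vale.Agent.P325.PCPMain
import Vale.Agent.P325.Marg
import Vale.Agent.P325.Pow
import Vale.Agent.P325.Comp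

/-! All steps together. -/

namespace Vale.Agent.P318M

open Vale.Agent.P325

theorem main (C : ℝ) : ∃ f : List Bool → WL × WL,
      (∃ M : Turing.TM2ComputableInPolyTime id (fun I : WL × WL => bitsOf (natsW I.1 ++ natsW I.2)) f,
        ∀ j, Finite (M.tm.Γ j)) ∧
      ∀ x : List Bool, (∃ S, 0 < cut (f x).2 S) ∧
        ((∃ φ : CNF3, bitsOf (natsCNF φ) = x ∧ Sat φ) →
          ∃ S, 0 < cut (f x).2 S ∧ cut (f x).1 S ≤ 3 * cut (f x).2 S) ∧
        (¬ (∃ φ : CNF3, bitsOf (natsCNF φ) = x ∧ Sat φ) →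
          ∀ S, C * (3 * cut (f x).2 S : ℝ) ≤ cut (f x).1 S) :=
  p_main (ug_of_pcp (pcp_of margThm powThm compThm)) (p_powYes p_cutStep) (p_powNo p_cutStep)
    p_cutSum (p_baseYes p_cutSum) (p_baseNo p_cutSum p_kkl p_local p_count) p_ptBase p_ptLev C

end Vale.Agent.P318M
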