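import Vale.Agent.P318M.Spec

/-! Assembly of the reduction. -/

open Finset

namespace Vale.Agent.P318M

open Vale.Agent.P325 Vale.Agent.P325.Fnl Vale.Agent.Lib.PolyTime

theorem p_main (hU : UGThm) (h1 : PowYes) (h2 : PowNo) (h3 : CutSum) (h4 : BaseYes) (h5 : BaseNo)
    (h6 : PTBase) (h7 : PTLev) (C : ℝ) : ∃ f : List Bool → WL × WL,
      (∃ M : Turing.TM2ComputableInPolyTime id (fun I : WL × WL => bitsOf (natsW I.1 ++ natsW I.2)) f,
        ∀ j, Finite (M.tm.Γ j)) ∧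
      ∀ x : List Bool, (∃ S, 0 < cut (f x).2 S) ∧
        ((∃ φ : CNF3, bitsOf (natsCNF φ) = x ∧ Sat φ) →
          ∃ S, 0 < cut (f x).2 S ∧ cut (f x).1 S ≤ 3 * cut (f x).2 S) ∧
        (¬ (∃ φ : CNF3, bitsOf (natsCNF φ) = x ∧ Sat φ) →
          ∀ S, C * (3 * cut (f x).2 S : ℝ) ≤ cut (f x).1 S) := by
  obtain ⟨c, hc⟩ := exists_nat_ge (3 * C)
  obtain ⟨Λ, δ, hδ, hno⟩ := h5 (2 * (c + 1))
  obtain ⟨k, hk, f, hf, hφ⟩ := hU (1 / (Λ + 1)) δ (by positivity) hδ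
  obtain ⟨p1, p2, p3⟩ := h6 k Λ f hf
  have q1 := h7.1 _ _ [(0, 1, 2 * (c + 1))] p1 p2 (2 * (c + 1))
  have q2 := h7.1 _ _ [] p1 p3 (2 * (c + 1))
  have q3 : PT fun φ => natsW (lev (occ (f φ)) (sup Λ (f φ)) [(0, 1, 2 * (c + 1))] (2 * (c + 1))) ++
      natsW (lev (occ (f φ)) (dem (f φ)) [] (2 * (c + 1))) := by
    have a1 := h7.2.comp q1
    have a2 := h7.2.comp q2
    fun_prop
  refine ⟨fun x => (lev (occ (f (rd x))) (sup Λ (f (rd x))) [(0, 1, 2 * (c + 1))] (2 * (c + 1)),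
    lev (occ (f (rd x))) (dem (f (rd x))) [] (2 * (c + 1))),
    (pt_bitsOf.comp (q3.comp pt_rd)).rawMachine _ _ _ fun _ => rfl, fun x => ?_⟩
  obtain ⟨h0, hy, hn⟩ := hφ (rd x)
  rw [← sat_rd]
  dsimp only
  generalize f (rd x) = G at h0 hy hn ⊢
  have hlen := (h3 k Λ G fun _ => true).1
  have hG : 0 < G.length := List.length_pos_iff.2 h0
  have hM : 0 < (occ G).length := by
    rw [hlen]
    positivity
  have key : ∀ a : ℕ → Fin k, ∃ S, 0 < cut (lev (occ G) (dem G) [] (2 * (c + 1))) S ∧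
      (Λ * (G.length - ugCount G a) ≤ G.length →
        cut (lev (occ G) (sup Λ G) [(0, 1, 2 * (c + 1))] (2 * (c + 1))) S ≤
          3 * cut (lev (occ G) (dem G) [] (2 * (c + 1))) S) := by
    intro a
    obtain ⟨S0, e1, e2⟩ := h4 k Λ G a
    obtain ⟨S, -, -, e3, e4⟩ := h1 (occ G) (sup Λ G) (dem G) (2 * (c + 1)) S0 e1 (2 * (c + 1))
    refine ⟨S, by rw [e3]; positivity, fun h => ?_⟩
    rw [e3]
    refine (e4 (e2.trans ?_)).trans (le_of_eq (by ring))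
    have := Nat.mul_le_mul_left (2 ^ k) h
    rw [hlen]
    nlinarith [Nat.zero_le (2 ^ k * G.length)]
  refine ⟨(key fun _ => ⟨0, by omega⟩).imp fun S h => h.1, fun hs => ?_, fun hs S => ?_⟩
  · obtain ⟨a, ha⟩ := hy hs
    refine (key a).imp fun S h => ⟨h.1, h.2 ?_⟩
    have hle : ugCount G a ≤ G.length := List.countP_le_length
    have h8 : (Λ : ℝ) * ((G.length : ℝ) - ugCount G a) ≤ G.length := by
      have h9 : (G.length : ℝ) - ugCount G a ≤ 1 / (Λ + 1) * G.length := by linarith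
      have h10 : (Λ : ℝ) * (1 / (Λ + 1)) ≤ 1 := by
        rw [mul_one_div, div_le_one (by positivity)]
        linarith
      have h11 := mul_le_mul_of_nonneg_left h9 (Nat.cast_nonneg (α := ℝ) Λ)
      have h12 := mul_le_mul_of_nonneg_right h10 (Nat.cast_nonneg (α := ℝ) G.length)
      nlinarith
    rw [← Nat.cast_sub hle] at h8
    exact_mod_cast h8
  · have h8 := h2 (occ G) (sup Λ G) (dem G) (c + 1) (hno k (by omega) G (hn hs))
      (fun S b => (h3 k Λ G S).2.2.2 b) S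
    have h9 : ((c : ℝ) + 1) * cut (lev (occ G) (dem G) [] (2 * (c + 1))) S ≤
        cut (lev (occ G) (sup Λ G) [(0, 1, 2 * (c + 1))] (2 * (c + 1))) S := by exact_mod_cast h8
    have h10 : (0 : ℝ) ≤ cut (lev (occ G) (dem G) [] (2 * (c + 1))) S := Nat.cast_nonneg _
    show C * (3 * (cut (lev (occ G) (dem G) [] (2 * (c + 1))) S : ℝ)) ≤
      cut (lev (occ G) (sup Λ G) [(0, 1, 2 * (c + 1))] (2 * (c + 1))) S
    nlinarith

end Vale.Agent.P318M
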