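import Vale.Agent.P318M.StDefs
import Vale.Agent.P325.Final

/-! The reduction from Unique Games to nonuniform sparsest cut: definitions and steps. -/

open Finset

namespace Vale.Agent.P318M

open Vale.Agent.P325 Vale.Agent.Lib.PolyTime

/-- Points of the cube. -/
abbrev Cube (k : ℕ) : Type := Fin k → Bool

/-- The number of a point. -/
def cd {k : ℕ} (x : Cube k) : ℕ := ∑ i : Fin k, if x i = true then 2 ^ (i : ℕ) else 0

/-- The vertex of the point `x` in the cube of the name `u`. -/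
def vx {k : ℕ} (u : ℕ) (x : Cube k) : ℕ := u * 2 ^ k + cd x

/-- Flip one coordinate. -/
def flp {k : ℕ} (x : Cube k) (i : Fin k) : Cube k := Function.update x i (!x i)

/-- The antipode. -/
def ant {k : ℕ} (x : Cube k) : Cube k := fun i => !x i

/-- Permute the coordinates. -/
def prm {k : ℕ} (π : Equiv.Perm (Fin k)) (x : Cube k) : Cube k := fun i => x (π.symm i)

/-- All points. -/
noncomputable def pts (k : ℕ) : List (Cube k) := (univ : Finset (Cube k)).toList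

/-- The occurrences of vertices. -/
noncomputable def occ {k : ℕ} (G : UG k) : List ℕ :=
  G.flatMap fun c => (pts k).flatMap fun x => [vx c.1 x, vx c.2.1 x]

/-- The demand pairs. -/
noncomputable def dem {k : ℕ} (G : UG k) : WL :=
  G.flatMap fun c => (pts k).flatMap fun x =>
    [(vx c.1 x, vx c.1 (ant x), 1), (vx c.2.1 x, vx c.2.1 (ant x), 1)]

/-- The supply edges. -/
noncomputable def sup {k : ℕ} (Λ : ℕ) (G : UG k) : WL :=
  G.flatMap fun c => (pts k).flatMap fun x =>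
    (vx c.1 x, vx c.2.1 (prm c.2.2 x), if c.1 = c.2.1 then 0 else Λ) ::
      (List.finRange k).flatMap fun i =>
        [(vx c.1 x, vx c.1 (flp x i), 1 + if c.1 = c.2.1 ∧ c.2.2 i ≠ i then Λ else 0),
          (vx c.2.1 x, vx c.2.1 (flp x i), 1)]

/-- Rename the vertices and scale the weights. -/
def mapW (ρ : ℕ → ℕ) (w : ℕ) (L : WL) : WL := L.map fun e => (ρ e.1, ρ e.2.1, w * e.2.2)

/-- The new name of an own vertex. -/
def own (n z : ℕ) : ℕ := z * n + 2

/-- The new names of the vertices of the copy number `i` with terminals `a` and `b`. -/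
def rel (n i a b y : ℕ) : ℕ := if y = 0 then a else if y = 1 then b else (y - 2) * n + i + 2

/-- One level of the powering: the terminals are `0` and `1`. -/
def step (O : List ℕ) (B : WL) (j : ℕ) (L : WL) : WL :=
  mapW (own (2 * O.length + 1)) (O.length ^ j) B ++ (List.range O.length).flatMap fun o =>
    mapW (rel (2 * O.length + 1) (2 * o + 1) 0 (own (2 * O.length + 1) (O.getD o 0))) 1 L ++
      mapW (rel (2 * O.length + 1) (2 * o + 2) (own (2 * O.length + 1) (O.getD o 0)) 1) 1 L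

/-- The powering. -/
def lev (O : List ℕ) (B I0 : WL) : ℕ → WL
  | 0 => I0
  | j + 1 => step O B j (lev O B I0 j)

/-- The number of points separated from their antipode. -/
def aa {k : ℕ} (f : Cube k → Bool) : ℕ := (univ.filter fun x => f x ≠ f (ant x)).card

/-- The number of points sensitive in direction `i`. -/
def inf {k : ℕ} (f : Cube k → Bool) (i : Fin k) : ℕ := (univ.filter fun x => f x ≠ f (flp x i)).card

/-- The distance of `f` and `g` along `π`. -/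
def dis {k : ℕ} (π : Equiv.Perm (Fin k)) (f g : Cube k → Bool) : ℕ :=
  (univ.filter fun x => f x ≠ g (prm π x)).card

open Classical in
/-- The influential coordinates. -/
noncomputable def lab {k : ℕ} (τ : ℝ) (f : Cube k → Bool) : Finset (Fin k) :=
  univ.filter fun i => τ / 2 * 2 ^ k ≤ (inf f i : ℝ)

/-- The constraint `c` can be decoded from the lists `Lb`. -/
def Dec {k : ℕ} (R : ℕ) (Lb : ℕ → Finset (Fin k)) (c : ℕ × ℕ × Equiv.Perm (Fin k)) : Prop :=
  (Lb c.1).card ≤ R ∧ (Lb c.2.1).card ≤ R ∧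
    ∃ i ∈ Lb c.1, c.2.2 i ∈ Lb c.2.1 ∧ (c.1 = c.2.1 → c.2.2 i = i)

/-- The cost of one constraint. -/
def cst {k : ℕ} (Λ : ℕ) (f : ℕ → Cube k → Bool) (c : ℕ × ℕ × Equiv.Perm (Fin k)) : ℕ :=
  (if c.1 = c.2.1 then 0 else Λ) * dis c.2.2 (f c.1) (f c.2.1) +
    ∑ i, ((1 + if c.1 = c.2.1 ∧ c.2.2 i ≠ i then Λ else 0) * inf (f c.1) i + inf (f c.2.1) i)

/-! ### The steps -/

def CutStep : Prop := ∀ (O : List ℕ) (B : WL) (j : ℕ) (L : WL) (S : ℕ → Bool),
  cut (step O B j L) S = O.length ^ j * cut B (fun z => S (own (2 * O.length + 1) z)) +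
    ∑ o ∈ range O.length,
      (cut L (fun y => S (rel (2 * O.length + 1) (2 * o + 1) 0
          (own (2 * O.length + 1) (O.getD o 0)) y)) +
        cut L (fun y => S (rel (2 * O.length + 1) (2 * o + 2)
          (own (2 * O.length + 1) (O.getD o 0)) 1 y)))

def PowYes : Prop := ∀ (O : List ℕ) (E D : WL) (W : ℕ) (S0 : ℕ → Bool), cut D S0 = O.length →
  ∀ j, ∃ S : ℕ → Bool, S 0 = false ∧ S 1 = true ∧ cut (lev O D [] j) S = j * O.length ^ j ∧
    (cut E S0 ≤ 2 * O.length → cut (lev O E [(0, 1, W)] j) S ≤ (W + 2 * j) * O.length ^ j)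

def PowNo : Prop := ∀ (O : List ℕ) (E D : WL) (C : ℕ),
  (∀ S, 2 * C * cut D S ≤ O.length + cut E S) →
  (∀ (S : ℕ → Bool) (b : Bool), cut D S ≤ 2 * O.countP fun z => S z != b) →
  ∀ S, C * cut (lev O D [] (2 * C)) S ≤ cut (lev O E [(0, 1, 2 * C)] (2 * C)) S

def CutSum : Prop := ∀ (k Λ : ℕ) (G : UG k) (S : ℕ → Bool),
  (occ G).length = 2 * 2 ^ k * G.length ∧
  cut (dem G) S = (G.map fun c => aa (fun x : Cube k => S (vx c.1 x)) +
    aa (fun x : Cube k => S (vx c.2.1 x))).sum ∧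
  cut (sup Λ G) S = (G.map fun c => cst Λ (fun u x => S (vx u x)) c).sum ∧
  ∀ b : Bool, cut (dem G) S ≤ 2 * (occ G).countP fun z => S z != b

def BaseYes : Prop := ∀ (k Λ : ℕ) (G : UG k) (a : ℕ → Fin k), ∃ S : ℕ → Bool,
  cut (dem G) S = (occ G).length ∧
    cut (sup Λ G) S ≤ (occ G).length + Λ * 2 ^ k * (G.length - ugCount G a)

def KKL : Prop := ∀ K : ℕ, ∃ τ : ℝ, 0 < τ ∧ ∀ (k : ℕ) (f : Cube k → Bool),
  (∀ i, (inf f i : ℝ) ≤ τ * 2 ^ k) → K * aa f ≤ ∑ i, inf f i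

def Local : Prop := ∀ (K Λ R : ℕ) (τ : ℝ), 0 < τ → 8 * (K : ℝ) ≤ Λ * τ → 4 * (K : ℝ) ≤ R * τ →
  ∀ k : ℕ, (∀ f : Cube k → Bool, (∀ i, (inf f i : ℝ) ≤ τ * 2 ^ k) → K * aa f ≤ ∑ i, inf f i) →
    ∀ (f : ℕ → Cube k → Bool) (c : ℕ × ℕ × Equiv.Perm (Fin k)),
      Dec R (fun u => lab τ (f u)) c ∨ K * (aa (f c.1) + aa (f c.2.1)) ≤ cst Λ f c

open Classical in
def Count : Prop := ∀ (k R : ℕ), 1 ≤ k → ∀ (G : UG k) (Lb : ℕ → Finset (Fin k)),
  ∃ a : ℕ → Fin k, (G.countP fun c => decide (Dec R Lb c)) ≤ R ^ 2 * ugCount G a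

def BaseNo : Prop := ∀ K : ℕ, ∃ (Λ : ℕ) (δ : ℝ), 0 < δ ∧ ∀ k : ℕ, 1 ≤ k → ∀ G : UG k,
  (∀ a, (ugCount G a : ℝ) ≤ δ * G.length) →
    ∀ S, K * cut (dem G) S ≤ (occ G).length + cut (sup Λ G) S

def PTBase : Prop := ∀ (k Λ : ℕ) (f : CNF3 → UG k), PT (fun φ => natsUG (f φ)) →
  PT (fun φ => occ (f φ)) ∧ PT (fun φ => sup Λ (f φ)) ∧ PT (fun φ => dem (f φ))

def PTLev : Prop := (∀ (O : CNF3 → List ℕ) (B : CNF3 → WL) (I0 : WL), PT O → PT B →
  ∀ j, PT fun φ => lev (O φ) (B φ) I0 j) ∧ PT natsW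

end Vale.Agent.P318M
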