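import Vale.Agent.P325.StDefs

/-! Weighted pairs and cuts. -/

namespace Vale.Agent.P318M

/-- A list of weighted pairs `(u, v, w)` of vertices; vertices are named by natural numbers. -/
abbrev WL : Type := List (ℕ × ℕ × ℕ)

/-- The total weight of the pairs separated by the vertex set `S`. -/
def cut (L : WL) (S : ℕ → Bool) : ℕ :=
  (L.map fun e => if S e.1 = S e.2.1 then 0 else e.2.2).sum

/-- A list of weighted pairs as a list of naturals: its length, then three numbers per pair. -/
def natsW (L : WL) : List ℕ := L.length :: L.flatMap fun e => [e.1, e.2.1, e.2.2]

end Vale.Agent.P318M
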